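import Vale.Agent.P143L45.Extra

/-! P143 on isomorphism classes of graphs with the local topology. -/

set_option autoImplicit false

namespace Vale.Agent.Results.P143.AClasses

open Vale.Agent.P143 Vale.Agent.P143L45 MeasureTheory SimpleGraph

universe u

/-- (1) The FUSF of every Cayley graph is a factor of IID for the group. (2) The FUSF is a graph
factor of IID on every unimodular random graph. (3) One Borel function of the isomorphism class
of `(G, U, e)` does this for all graphs. (4) The points of the three spaces are the isomorphism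
classes. (5) Rooted graphs with isomorphic balls of all radii are isomorphic. (6) Cayley graphs
of infinite groups are unimodular. -/
theorem result :
    (∀ (Γ : Type u) [Group Γ] (S : Set Γ), S.Finite → Subgroup.closure S = ⊤ →
      ∃ μ : Measure ((mulCayley S).edgeSet → Bool),
        IsFUSF (mulCayley S) μ ∧ IsGroupFactor S μ) ∧
    (∀ ρ : Measure GStar.{u}, Unimodular ρ → IsGraphFactor ρ) ∧
    (∃ Φ : GEdge.{u} → Bool, Measurable Φ ∧ ∀ g : Gr.{u}, IsFUSF g.G (law Φ g)) ∧
    ((∀ x y : Rooted.{u}, x.cls = y.cls ↔ x.Iso y) ∧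
      (∀ x y : Rooted2.{u}, x.cls = y.cls ↔ x.Iso y) ∧
      (∀ x y : Marked.{u}, x.cls = y.cls ↔ x.Iso y)) ∧
    (∀ x y : Rooted.{u}, (∀ r, Rooted.Close r x y) → x.Iso y) ∧
    (∀ (Γ : Type u) [Group Γ] [Infinite Γ] (S : Set Γ), S.Finite → Subgroup.closure S = ⊤ →
      ∃ x : Rooted.{u}, Nonempty (x.G ≃g mulCayley S) ∧ Unimodular (Measure.dirac x.cls)) :=
  ⟨fun _ _ S hS hcl => cayley_part S hS hcl, fun ρ _ => graphFactor ρ, universal,
    ⟨mk_eq_iff Rooted.equiv, mk_eq_iff Rooted2.equiv, mk_eq_iff Marked.equiv⟩,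
    fun _ _ => Rooted.iso_of_close, fun Γ _ _ S hS hcl =>
      ⟨⟨⟨Γ, mulCayley S, inferInstance, mulCayley_connected S hcl,
        mulCayley_locallyFinite S hS⟩, 1⟩, ⟨RelIso.refl _⟩,
        cayley_unimodular S _ (RelIso.refl _)⟩⟩

end Vale.Agent.Results.P143.AClasses
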